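import Vale.Agent.P011UM5.Main
import Vale.Agent.P011UGA.IF
import Vale.Agent.P011.H268.LangC2Cor

/-!
The values of binary hermitian forms over global fields.
-/

set_option autoImplicit false
set_option linter.all false

namespace Vale.Agent.P011UGV1

open Vale.Agent.P011L Module

/-- Indefinite quadratic forms in five variables over global fields are isotropic. -/
theorem g5 {E V : Type} [Field E] [AddCommGroup V] [Module E V] [FiniteDimensional E V]
    (hE : Glob E) (q : QuadraticForm E V) (hV : 5 ≤ finrank E V)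
    (h : ∀ φ : E →+* ℝ, (∃ v, 0 < φ (q v)) ∧ ∃ v, φ (q v) < 0) : ∃ v, v ≠ 0 ∧ q v = 0 := by
  rcases hE with hE | ⟨F, _, _, _, _⟩
  · exact P011UM5.hm5 E V q hV h
  · exact P011.H268.exists_isotropic_quadraticMap F (RatFunc F) q (by rw [finrank_self]; omega)

section

variable {l E : Type} [Field l] [Field E] [Algebra l E]

theorem aut_cases (h2 : finrank l E = 2) {θ : E ≃ₐ[l] E} (hθ : θ ≠ 1) :
    IsGalois l E ∧ ∀ σ : E ≃ₐ[l] E, σ = 1 ∨ σ = θ := by
  classical
  haveI : FiniteDimensional l E := Module.finite_of_finrank_pos (by omega)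
  have h1 : Nat.card (E ≃ₐ[l] E) ≤ 2 := by
    rw [Nat.card_eq_fintype_card, ← h2]
    exact AlgEquiv.card_le
  haveI : Nontrivial (E ≃ₐ[l] E) := ⟨θ, 1, hθ⟩
  have h3 : 1 < Nat.card (E ≃ₐ[l] E) := Finite.one_lt_card
  have h4 : Nat.card (E ≃ₐ[l] E) = 2 := by omega
  refine ⟨IsGalois.of_card_aut_eq_finrank l E (h4.trans h2.symm), fun σ => ?_⟩
  obtain ⟨y, -, hy⟩ := (Nat.card_eq_two_iff' (1 : E ≃ₐ[l] E)).1 h4
  by_cases h : σ = 1
  · exact .inl h
  · exact .inr ((hy σ h).trans (hy θ hθ).symm)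

theorem aut_sq (h2 : finrank l E = 2) {θ : E ≃ₐ[l] E} (hθ : θ ≠ 1) (a : E) : θ (θ a) = a := by
  rcases (aut_cases h2 hθ).2 (θ * θ) with h | h
  · exact DFunLike.congr_fun h a
  · exact absurd (mul_eq_left.1 h) hθ

theorem aut_fix (h2 : finrank l E = 2) {θ : E ≃ₐ[l] E} (hθ : θ ≠ 1) {a : E} (ha : θ a = a) :
    ∃ x, algebraMap l E x = a := by
  haveI : FiniteDimensional l E := Module.finite_of_finrank_pos (by omega)
  obtain ⟨_, h⟩ := aut_cases h2 hθ
  refine (IsGalois.mem_range_algebraMap_iff_fixed a).2 fun σ => ?_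
  rcases h σ with rfl | rfl
  · rfl
  · exact ha

/-- The norm form. -/
theorem exists_norm (h2 : finrank l E = 2) {θ : E ≃ₐ[l] E} (hθ : θ ≠ 1) :
    ∃ N : QuadraticForm l E, ∀ a, algebraMap l E (N a) = a * θ a := by
  obtain ⟨p, hp⟩ := P011.H268.exists_section l E
  refine ⟨LinearMap.BilinMap.toQuadraticMap
    (((LinearMap.mul l E).compl₂ θ.toLinearMap).compr₂ p), fun a => ?_⟩
  obtain ⟨x, hx⟩ := aut_fix h2 hθ (a := a * θ a) (by rw [map_mul, aut_sq h2 hθ, mul_comm])
  change algebraMap l E (p (a * θ a)) = _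
  rw [← hx, hp]

theorem exists_tr {θ : E ≃ₐ[l] E} (hθ : θ ≠ 1) : ∃ b : E, b + θ b ≠ 0 := by
  by_contra h
  push Not at h
  apply hθ
  ext b
  have h1 := h 1
  rw [map_one] at h1
  change θ b = b
  linear_combination h b - b * h1

end

theorem val : P011UGA.VAL := by
  intro l E _ _ _ hl h2 θ hθ d x hd hx h
  haveI : FiniteDimensional l E := Module.finite_of_finrank_pos (by omega)
  obtain ⟨N, hN⟩ := exists_norm h2 hθ
  have inj := (algebraMap l E).injective
  let q : QuadraticForm l ((E × E) × l) :=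
    (N.prod ((-d) • N)).prod ((-x) • QuadraticMap.sq)
  have hq : ∀ a b z, q ((a, b), z) = N a - d * N b - x * z ^ 2 := by
    intro a b z
    simp only [q, QuadraticMap.prod_apply, QuadraticMap.smul_apply, QuadraticMap.sq_apply,
      smul_eq_mul]
    ring
  have N1 : N 1 = 1 := inj (by rw [hN, map_one, map_one, mul_one])
  obtain ⟨⟨⟨a, b⟩, z⟩, hne, h0⟩ := g5 hl q (by simp [h2]) fun f => by
    refine ⟨⟨((1, 0), 0), by simp [hq, N1]⟩, ?_⟩
    by_cases h3 : 0 < f x
    · exact ⟨((0, 0), 1), by simpa [hq] using h3⟩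
    by_cases h4 : 0 < f d
    · exact ⟨((0, 1), 0), by simpa [hq, N1] using h4⟩
    have h5 : f d < 0 := lt_of_le_of_ne (not_lt.1 h4) ((map_ne_zero f).2 hd)
    obtain ⟨F, hF⟩ : ∃ F : E →+* ℝ, F.comp (algebraMap l E) = f := by
      by_contra h6
      exact h3 (h f h6 h5)
    obtain ⟨c, hc⟩ : ∃ c, θ c ≠ c := by
      by_contra h6
      push Not at h6
      exact hθ (AlgEquiv.ext h6)
    refine ⟨((c - θ c, 0), 0), ?_⟩
    have h7 : f (N (c - θ c)) = -(F (c - θ c)) ^ 2 := by
      rw [← hF, RingHom.comp_apply, hN, map_sub θ, aut_sq h2 hθ, ← map_pow, ← map_neg]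
      congr 1
      ring
    have h8 : F (c - θ c) ≠ 0 := (map_ne_zero F).2 (sub_ne_zero.2 hc.symm)
    rw [hq]
    simp only [map_zero, mul_zero, sub_zero, ne_eq, OfNat.ofNat_ne_zero, not_false_eq_true,
      zero_pow]
    rw [h7]
    exact neg_neg_of_pos (by positivity)
  rw [hq] at h0
  have h1 := congrArg (algebraMap l E) h0
  rw [map_sub, map_sub, map_mul, map_mul, map_pow, hN, hN, map_zero] at h1
  by_cases hz : z = 0
  · subst hz
    rw [map_zero] at h1
    have ha : a ≠ 0 := by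
      rintro rfl
      have hb : b * θ b = 0 := by
        apply mul_left_cancel₀ ((map_ne_zero (algebraMap l E)).2 hd)
        rw [map_zero] at h1
        linear_combination -h1
      rcases mul_eq_zero.1 hb with hb | hb
      · exact hne (by rw [hb]; rfl)
      · exact hne (by rw [(map_eq_zero θ).1 hb]; rfl)
    have ha' : θ a ≠ 0 := (map_ne_zero θ).2 ha
    obtain ⟨c, hc⟩ := exists_tr hθ
    have hcc : θ (c + θ c) = c + θ c := by rw [map_add, aut_sq h2 hθ, add_comm]
    obtain ⟨u, hu⟩ : ∃ u, u = (algebraMap l E x - 1) / (c + θ c) * c := ⟨_, rfl⟩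
    have hu' : u + θ u = algebraMap l E x - 1 := by
      rw [hu, map_mul, map_div₀, hcc, map_sub, map_one, AlgEquiv.commutes]
      field_simp
    refine ⟨u + 1, u * b / a, ?_⟩
    rw [map_add, map_one, map_div₀, map_mul]
    have h9 : algebraMap l E d * (u * b / a * (θ u * θ b / θ a)) = u * θ u := by
      field_simp
      linear_combination (-(u * θ u)) * h1
    rw [h9]
    linear_combination -hu'
  · have hz' : algebraMap l E z ≠ 0 := (map_ne_zero _).2 hz
    refine ⟨a / algebraMap l E z, b / algebraMap l E z, ?_⟩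
    rw [map_div₀, map_div₀, AlgEquiv.commutes]
    field_simp
    linear_combination -h1

end Vale.Agent.P011UGV1
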