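import Vale.Agent.P011UGV1.Val
import Vale.Agent.P011U.Top

/-!
The values of the hermitian forms of the nodes.
-/

set_option autoImplicit false
set_option linter.all false

namespace Vale.Agent.P011UGV1

open Vale.Agent.P011L Vale.Agent.P011U Vale.Agent.P011UGA Module IntermediateField

section

variable {k K : Type} [Field k] [Field K] [Algebra k K] [IsSepClosure k K]

/-- A subgroup which contains an open subgroup is the group of its fixed field. -/
theorem mem_of_fix {H : Subgroup (K ≃ₐ[k] K)} (h : Near k fun τ => τ ∈ H) {τ : K ≃ₐ[k] K}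
    (hτ : ∀ x ∈ fixedField H, τ x = x) : τ ∈ H := by
  obtain ⟨F, _, hF⟩ := h
  have ho : IsOpen (H : Set (K ≃ₐ[k] K)) :=
    Subgroup.isOpen_mono (H₁ := F.fixingSubgroup)
      (fun σ hσ => hF σ ((mem_fixingSubgroup_iff _ _).1 hσ)) F.fixingSubgroup_isOpen
  have := InfiniteGalois.fixingSubgroup_fixedField ⟨H, H.isClosed_of_isOpen ho⟩
  change fixingSubgroup (fixedField H) = H at this
  rw [← this]
  exact (mem_fixingSubgroup_iff _ _).2 hτ

theorem fin_fix {H : Subgroup (K ≃ₐ[k] K)} (h : Near k fun τ => τ ∈ H) :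
    FiniteDimensional k (fixedField H) := by
  obtain ⟨F, _, hF⟩ := h
  have : fixedField H ≤ F := by
    rw [← InfiniteGalois.fixedField_fixingSubgroup F]
    exact fun x hx => (mem_fixedField_iff _ _).2 fun σ hσ =>
      (mem_fixedField_iff _ _).1 hx σ (hF σ ((mem_fixingSubgroup_iff _ _).1 hσ))
  exact Module.Finite.of_injective (inclusion this).toLinearMap (inclusion_injective this)

/-- A real place of a subfield extends to a complex embedding with its conjugation. -/
theorem exists_emb {l : Type} [Field l] (j : l →+* K) (a : k →+* l)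
    (hj : ∀ x, j (a x) = algebraMap k K x) (f : l →+* ℝ) :
    ∃ (ψ : K →+* ℂ) (τ : K ≃ₐ[k] K), (∀ x, ψ (j x) = f x) ∧
      ∀ x, ψ (τ x) = starRingEnd ℂ (ψ x) := by
  letI : Algebra l K := j.toAlgebra
  letI : Algebra k l := a.toAlgebra
  haveI : IsScalarTower k l K := IsScalarTower.of_algebraMap_eq fun x => (hj x).symm
  haveI : Algebra.IsAlgebraic l K := Algebra.IsAlgebraic.tower_top (K := k) l
  letI : Algebra l ℂ := (Complex.ofRealHom.comp f).toAlgebra
  let ψ : K →ₐ[l] ℂ := IsAlgClosed.lift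
  have h1 : ∀ x, ψ (j x) = f x := fun x => ψ.commutes x
  obtain ⟨σ, hσ⟩ := NumberField.ComplexEmbedding.exists_comp_symm_eq_of_comp_eq (k := k)
    (ψ : K →+* ℂ) ((starRingEnd ℂ).comp (ψ : K →+* ℂ)) (by
      ext x
      change ψ (algebraMap k K x) = starRingEnd ℂ (ψ (algebraMap k K x))
      rw [← hj, h1, Complex.conj_ofReal])
  exact ⟨ψ, σ.symm, h1, fun x => DFunLike.congr_fun hσ x⟩

end

theorem valk : VALK := by
  intro k K _ _ _ _ r hk ε π hn V φ κ hP d t i hd ht h θ hθ hθi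
  let H : Subgroup (K ≃ₐ[k] K) := (MulAction.stabilizer (Equiv.Perm (Fin r)) i).comap π
  have mH : ∀ σ, σ ∈ H ↔ π σ i = i := fun σ => Iff.rfl
  let H0 : Subgroup (K ≃ₐ[k] K) := ε.ker ⊓ H
  have mH0 : ∀ σ, σ ∈ H0 ↔ ε σ = 1 ∧ π σ i = i := fun σ => Iff.rfl
  have n0 : Near k fun τ => τ ∈ H0 := by
    obtain ⟨F, hF, h1⟩ := hn
    exact ⟨F, hF, fun τ hτ => (mH0 τ).2 ⟨(h1 τ hτ).1, by rw [(h1 τ hτ).2]; rfl⟩⟩
  have n1 : Near k fun τ => τ ∈ H := by
    obtain ⟨F, hF, h1⟩ := n0
    exact ⟨F, hF, fun τ hτ => (h1 τ hτ).2⟩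
  let E := fixedField H0
  haveI : FiniteDimensional k E := fin_fix n0
  have mE : ∀ a, a ∈ E ↔ Sp ε π i a := fun a =>
    (mem_fixedField_iff _ _).trans ⟨fun h σ h1 h2 => h σ ⟨h1, h2⟩, fun h σ hσ => h σ hσ.1 hσ.2⟩
  have hθH : θ ∈ H := hθi
  have cj : ∀ σ ∈ H, ε σ = -1 → θ⁻¹ * σ ∈ H0 := fun σ h1 h2 =>
    Subgroup.mem_inf.2 ⟨by rw [MonoidHom.mem_ker, map_mul, map_inv, hθ, h2, inv_mul_cancel],
      mul_mem (inv_mem hθH) h1⟩
  have ap : ∀ σ ∈ H, ε σ = -1 → ∀ a ∈ E, σ a = θ a := fun σ h1 h2 a ha => by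
    have := (mem_fixedField_iff _ _).1 ha _ (cj σ h1 h2)
    conv_rhs => rw [← this]
    rw [← AlgEquiv.mul_apply, mul_inv_cancel_left]
  have st : ∀ a ∈ E, θ a ∈ E := fun a ha => (mem_fixedField_iff _ _).2 fun σ hσ =>
    ap (σ * θ) (mul_mem hσ.2 hθH) (by rw [map_mul, hθ, show ε σ = 1 from hσ.1, one_mul]) a ha
  have sq : ∀ a ∈ E, θ (θ a) = a := fun a ha => (mem_fixedField_iff _ _).1 ha (θ * θ)
    (Subgroup.mem_inf.2 ⟨by rw [MonoidHom.mem_ker, map_mul, hθ]; rfl, mul_mem hθH hθH⟩)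
  let θE : E ≃ₐ[k] E :=
    { toFun := fun a => ⟨θ a, st a a.2⟩
      invFun := fun a => ⟨θ a, st a a.2⟩
      left_inv := fun a => Subtype.ext (sq a a.2)
      right_inv := fun a => Subtype.ext (sq a a.2)
      map_mul' := fun a b => Subtype.ext (map_mul θ (a : K) b)
      map_add' := fun a b => Subtype.ext (map_add θ (a : K) b)
      commutes' := fun a => Subtype.ext (θ.commutes a) }
  have hne : θE ≠ 1 := by
    intro h1
    have : ε θ = 1 := (mem_of_fix n0 (τ := θ) fun x hx => congrArg Subtype.val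
      (DFunLike.congr_fun h1 (⟨x, hx⟩ : E))).1
    rw [hθ] at this
    exact absurd this (by decide)
  have hsq : θE * θE = 1 := AlgEquiv.ext fun a => Subtype.ext (sq a a.2)
  let l := fixedField (Subgroup.zpowers θE)
  have ml : ∀ a : E, a ∈ l ↔ θ a = a := fun a => by
    refine (mem_fixedField_iff _ _).trans ⟨fun h => congrArg Subtype.val
      (h θE (Subgroup.mem_zpowers _)), fun h σ hσ => ?_⟩
    have : Subgroup.zpowers θE ≤ MulAction.stabilizer (E ≃ₐ[k] E) a :=
      (Subgroup.zpowers_le ..).2 (Subtype.ext h)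
    exact this hσ
  have h2 : finrank l E = 2 := by
    rw [finrank_fixedField_eq_card, Nat.card_zpowers]
    exact orderOf_eq_prime (by rw [pow_two, hsq]) hne
  let θl : E ≃ₐ[l] E := { θE.toRingEquiv with commutes' := fun a => Subtype.ext ((ml a).1 a.2) }
  have hne' : θl ≠ 1 := fun h1 => hne (AlgEquiv.ext fun a => DFunLike.congr_fun h1 a)
  have el : ∀ s : Fin r → Kˣ, Eqt (fun _ => True) π s →
      ∃ x : l, ((x : E) : K) = s i := fun s hs =>
    ⟨⟨⟨s i, (mE _).2 fun σ _ h1 => by rw [← hs σ trivial i, h1]⟩,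
      (ml _).2 (by change θ (s i) = s i; rw [← hs θ trivial i, hθi])⟩, rfl⟩
  obtain ⟨dl, hdl⟩ := el d hd
  obtain ⟨tl, htl⟩ := el t ht
  obtain ⟨a, b, hab⟩ := val l E (Glob.fin hk) h2 θl hne' dl tl
    (fun h0 => (d i).ne_zero (by rw [← hdl, h0]; rfl))
    (fun h0 => (t i).ne_zero (by rw [← htl, h0]; rfl)) fun f hf hneg => by
    obtain ⟨ψ, τ, h3, h4⟩ := exists_emb ((algebraMap E K).comp (algebraMap l E))
      (algebraMap k l) (fun _ => rfl) f
    replace h3 : ∀ x : l, ψ ((x : E) : K) = f x := h3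
    have h5 : τ ∈ H := mem_of_fix n1 fun x hx => by
      have hx' := (mem_fixedField_iff _ _).1 hx
      have := h3 ⟨⟨x, (mem_fixedField_iff _ _).2 fun σ hσ => hx' σ hσ.2⟩, (ml _).2 (hx' θ hθH)⟩
      apply ψ.injective
      rw [h4]
      exact (congrArg _ this).trans ((Complex.conj_ofReal _).trans this.symm)
    have h6 : ε τ = -1 := by
      refine (Int.units_eq_one_or _).resolve_left fun h6 => hf ?_
      have h7 : ∀ x : E, ((ψ x).re : ℂ) = ψ x := fun x => Complex.conj_eq_iff_re.1 (by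
        rw [← h4, (mem_fixedField_iff _ _).1 x.2 τ ⟨h6, h5⟩])
      refine ⟨{ toFun := fun x => (ψ x).re
                map_one' := by simp
                map_mul' := fun x y => Complex.ofReal_injective (by
                  rw [Complex.ofReal_mul, h7, h7, h7, ← map_mul]; rfl)
                map_zero' := by simp
                map_add' := fun x y => by simp }, RingHom.ext fun x => ?_⟩
      change (ψ ((x : E) : K)).re = f x
      rw [h3, Complex.ofReal_re]
    obtain ⟨v, σ, h8⟩ := hP.all ψ τ h4 h6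
    have h9 : κ v * σ = σ * τ := AlgEquiv.ext fun x => (φ v).injective (by
      rw [AlgEquiv.mul_apply, AlgEquiv.mul_apply, hP.cj, ← h8, ← h8, h4])
    have := h v (π σ i) ⟨σ, rfl⟩ (by
      rw [← Equiv.Perm.mul_apply, ← map_mul, h9, map_mul, Equiv.Perm.mul_apply, (mH τ).1 h5])
      (by rw [hd σ trivial, ← h8, ← hdl, h3]; exact hneg)
    rwa [ht σ trivial, ← h8, ← htl, h3] at this
  refine ⟨a, b, (mE _).1 a.2, (mE _).1 b.2, ?_⟩
  rw [← hdl, ← htl]
  exact congrArg Subtype.val hab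

end Vale.Agent.P011UGV1
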